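import Vale.Agent.P262.Rearrange

namespace Vale.Agent.Results.P262.MeanSquare

open Finset Vale.Agent.P262.MeanSquare Vale.Agent.P262.Rearrange

/-- Mean square versions, with the sharp constant `d`, of the signed initial sum problem and of the
Euclidean Steinitz problem.

(A) for all vectors `v_1..v_N` in the unit ball of `ℝ^d` and every finite family of tests
(length `κ j`, direction `θ j`) there are signs with
`∑_j ⟨P_{κ j}, θ j⟩^2 ≤ ∑_j ‖θ j‖^2`, where `P_k` is the signed sum of the first `k` vectors;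
(B) for all nonnegative weights `c_k` there are signs with `∑_k c_k ‖P_k‖^2 ≤ d ∑_k c_k`;
(C) for every `K > 0` there are signs such that at most `N / K` indices `k` have `‖P_k‖^2 > K d`;
(D) every zero sum family in the unit ball can be ordered so that
`∑_{k ≤ N} ‖S_k‖^2 ≤ d N` for the sums `S_k` of its first `k` vectors;
(E) the constant `d` in (B) is optimal (orthonormal basis, all the weight on `k = d`). -/
theorem result :
    (∀ (d N m : ℕ) (v : Fin N → EuclideanSpace ℝ (Fin d)), (∀ i, ‖v i‖ ≤ 1) →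
      ∀ (κ : Fin m → ℕ) (θ : Fin m → EuclideanSpace ℝ (Fin d)),
      ∃ ε : Fin N → ℝ, (∀ i, ε i = 1 ∨ ε i = -1) ∧
        ∑ j, (inner ℝ (∑ i ∈ univ.filter (fun i : Fin N => (i : ℕ) < κ j), ε i • v i) (θ j)) ^ 2
          ≤ ∑ j, ‖θ j‖ ^ 2) ∧
    (∀ (d N : ℕ) (v : Fin N → EuclideanSpace ℝ (Fin d)), (∀ i, ‖v i‖ ≤ 1) →
      ∀ c : ℕ → ℝ, (∀ k, 0 ≤ c k) →
      ∃ ε : Fin N → ℝ, (∀ i, ε i = 1 ∨ ε i = -1) ∧
        ∑ k ∈ range (N + 1),
            c k * ‖∑ i ∈ univ.filter (fun i : Fin N => (i : ℕ) < k), ε i • v i‖ ^ 2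
          ≤ d * ∑ k ∈ range (N + 1), c k) ∧
    (∀ (d N : ℕ) (v : Fin N → EuclideanSpace ℝ (Fin d)), (∀ i, ‖v i‖ ≤ 1) →
      ∀ K : ℝ, 0 < K →
      ∃ ε : Fin N → ℝ, (∀ i, ε i = 1 ∨ ε i = -1) ∧
        (((range (N + 1)).filter (fun k =>
            K * d < ‖∑ i ∈ univ.filter (fun i : Fin N => (i : ℕ) < k), ε i • v i‖ ^ 2)).card : ℝ) * K
          ≤ N) ∧
    (∀ (d N : ℕ) (v : Fin N → EuclideanSpace ℝ (Fin d)), (∀ i, ‖v i‖ ≤ 1) → ∑ i, v i = 0 →
      ∃ σ : Equiv.Perm (Fin N),
        ∑ k ∈ range (N + 1), ‖∑ i ∈ univ.filter (fun i : Fin N => (i : ℕ) < k), v (σ i)‖ ^ 2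
          ≤ d * N) ∧
    (∀ d : ℕ, ∃ v : Fin d → EuclideanSpace ℝ (Fin d), (∀ i, ‖v i‖ ≤ 1) ∧
      ∀ ε : Fin d → ℝ, (∀ i, ε i = 1 ∨ ε i = -1) →
        ‖∑ i ∈ univ.filter (fun i : Fin d => (i : ℕ) < d), ε i • v i‖ ^ 2 = d) := by
  refine ⟨?_, ?_, ?_, ?_, ?_⟩
  · intro d N m v hv κ θ
    exact directional v hv κ θ
  · intro d N v hv c hc
    exact weighted v hv c hc
  · intro d N v hv K hK
    obtain ⟨ε, hε, hle⟩ := weighted v hv (fun k => if k = 0 then 0 else 1)
      (fun k => by split_ifs <;> norm_num)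
    refine ⟨ε, hε, ?_⟩
    have hc : ∑ k ∈ range (N + 1), (if k = 0 then (0 : ℝ) else 1) = N := by
      rw [Finset.sum_range_succ']
      simp
    have hD : ∑ k ∈ range (N + 1), (if k = 0 then (0 : ℝ) else 1) * ‖pre v ε k‖ ^ 2
        = ∑ k ∈ range (N + 1), ‖pre v ε k‖ ^ 2 := by
      refine Finset.sum_congr rfl (fun k _ => ?_)
      by_cases hk : k = 0
      · subst hk
        simp [pre]
      · simp [hk]
    rw [hc, hD] at hle
    set B := (range (N + 1)).filter (fun k =>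
      K * d < ‖∑ i ∈ univ.filter (fun i : Fin N => (i : ℕ) < k), ε i • v i‖ ^ 2) with hB
    have h1 : (B.card : ℝ) * (K * d) ≤ ∑ k ∈ B, ‖pre v ε k‖ ^ 2 := by
      rw [← nsmul_eq_mul]
      apply Finset.card_nsmul_le_sum
      intro k hk
      exact le_of_lt (Finset.mem_filter.mp hk).2
    have h2 : ∑ k ∈ B, ‖pre v ε k‖ ^ 2 ≤ ∑ k ∈ range (N + 1), ‖pre v ε k‖ ^ 2 :=
      Finset.sum_le_sum_of_subset_of_nonneg (Finset.filter_subset _ _)
        (fun _ _ _ => by positivity)
    rcases Nat.eq_zero_or_pos d with hd | hd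
    · subst hd
      have hBe : B = ∅ := by
        rw [hB, Finset.filter_eq_empty_iff]
        intro k _
        have : (∑ i ∈ univ.filter (fun i : Fin N => (i : ℕ) < k), ε i • v i) = 0 :=
          Subsingleton.elim _ _
        rw [this]
        simp
      rw [hBe]
      simp
    · have hd' : (0 : ℝ) < d := by exact_mod_cast hd
      have h3 : (B.card : ℝ) * K * d ≤ N * d := by
        calc (B.card : ℝ) * K * d = (B.card : ℝ) * (K * d) := by ring
          _ ≤ d * N := le_trans h1 (le_trans h2 hle)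
          _ = N * d := by ring
      exact le_of_mul_le_mul_right h3 hd'
  · intro d N v hv h0
    exact steinitz_ms v hv h0
  · intro d
    refine ⟨fun i => EuclideanSpace.single i (1 : ℝ), fun i => by simp, ?_⟩
    intro ε hε
    have hf : univ.filter (fun i : Fin d => (i : ℕ) < d) = univ := by
      apply Finset.filter_true_of_mem
      intro i _
      exact i.2
    rw [hf, norm_sq_eq_sum]
    have : ∀ a : Fin d, ((∑ i, ε i • EuclideanSpace.single i (1 : ℝ) :
        EuclideanSpace ℝ (Fin d)) a) ^ 2 = 1 := by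
      intro a
      have e : (∑ i, ε i • EuclideanSpace.single i (1 : ℝ) : EuclideanSpace ℝ (Fin d)) a = ε a := by
        simp [Finset.sum_apply, Pi.single_apply]
      rw [e]
      rcases hε a with h | h <;> rw [h] <;> norm_num
    rw [Finset.sum_congr rfl (fun a _ => this a)]
    simp

end Vale.Agent.Results.P262.MeanSquare
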