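import Vale.Agent.P262.Lower
import Vale.Agent.P262.Plane

namespace Vale.Agent.Results.P262.PlaneExactValue

open Vale.Agent.P262

/-- The signed partial-sum constant of the Euclidean plane equals `√3`. -/
theorem result :
    (∀ (N : ℕ) (v : Fin N → EuclideanSpace ℝ (Fin 2)), (∀ i, ‖v i‖ ≤ 1) →
      ∃ ε : Fin N → ℝ, (∀ i, ε i = 1 ∨ ε i = -1) ∧ ∀ k : ℕ, k ≤ N →
        ‖∑ i ∈ Finset.univ.filter (fun i : Fin N => (i : ℕ) < k), ε i • v i‖ ≤ Real.sqrt 3) ∧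
    (∀ R : ℝ, R < Real.sqrt 3 →
      ∃ (N : ℕ) (v : Fin N → EuclideanSpace ℝ (Fin 2)), (∀ i, ‖v i‖ ≤ 1) ∧
      ∀ ε : Fin N → ℝ, (∀ i, ε i = 1 ∨ ε i = -1) → ∃ k : ℕ, k ≤ N ∧
        R < ‖∑ i ∈ Finset.univ.filter (fun i : Fin N => (i : ℕ) < k), ε i • v i‖) := by
  constructor
  · intro N v hv
    have h := safe_plane (E := EuclideanSpace ℝ (Fin 2)) (by simp) N v hv 0 0 (by simp) (by simp)
    have h' : Safe N v 0 3 := by
      rcases h with h | h <;> simpa using h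
    obtain ⟨ε, hε, hk⟩ := h'.exists_signs
    refine ⟨ε, hε, fun k hkN => ?_⟩
    have := hk k hkN
    rw [zero_add] at this
    exact Real.le_sqrt_of_sq_le this
  · intro R hR
    by_cases hR0 : R < 0
    · refine ⟨0, fun i => 0, by simp, fun ε _ => ⟨0, le_rfl, ?_⟩⟩
      exact lt_of_lt_of_le hR0 (norm_nonneg _)
    · push Not at hR0
      have hR2 : R ^ 2 < 3 := Real.lt_sqrt hR0 |>.mp hR
      obtain ⟨n, hn⟩ := exists_pow_lt_of_lt_one (show (0 : ℝ) < 3 - R ^ 2 by linarith)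
        (show (1 / 2 : ℝ) < 1 by norm_num)
      obtain ⟨v, hv, hF⟩ := forces_main 0 (EuclideanSpace ℝ (Fin 2)) (by simp) n
      refine ⟨n + 2 + 0, v, hv, fun ε hε => ?_⟩
      obtain ⟨k, hk, hk'⟩ := hF.exists_index ε hε
      refine ⟨k, hk, ?_⟩
      rw [zero_add] at hk'
      have h3 : R ^ 2 < ‖∑ i ∈ Finset.univ.filter (fun i : Fin (n + 2 + 0) => (i : ℕ) < k),
          ε i • v i‖ ^ 2 := by
        push_cast at hk'
        linarith
      exact lt_of_pow_lt_pow_left₀ 2 (norm_nonneg _) h3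

end Vale.Agent.Results.P262.PlaneExactValue
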