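import Vale.Agent.Results.P262.LowerBoundAllDims
import Vale.Agent.Results.P262.PlaneExactValue
import Vale.Agent.Results.P262.MeanSquare

namespace Vale.Agent.Results.P262.Combined

open Finset

/-- One statement collecting what is proved here on the signed initial sum constant `σ(d)` and the
Euclidean Steinitz constant:

(1) `σ(d, N) ≥ √(d + 1 - 2^{-(N-d)})` for all `N ≥ d ≥ 2`, hence `σ(d) ≥ √(d+1)`;
(2) `σ(2) ≤ √3`, so that with (1) `σ(2) = √3`;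
(3) for all nonnegative weights `c_k` there are signs with `∑_k c_k ‖P_k‖^2 ≤ d ∑_k c_k`;
(4) for every `K > 0` there are signs such that at most `N / K` indices `k` have `‖P_k‖^2 > K d`;
(5) every zero sum family in the unit ball can be ordered so that `∑_{k ≤ N} ‖S_k‖^2 ≤ d N`;
(6) the constant `d` in (3) is optimal. -/
theorem result :
    (∀ d : ℕ, 2 ≤ d →
      (∀ N : ℕ, d ≤ N → ∃ v : Fin N → EuclideanSpace ℝ (Fin d), (∀ i, ‖v i‖ ≤ 1) ∧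
        ∀ ε : Fin N → ℝ, (∀ i, ε i = 1 ∨ ε i = -1) → ∃ k : ℕ, k ≤ N ∧
          Real.sqrt ((d : ℝ) + 1 - (1 / 2) ^ (N - d)) ≤
            ‖∑ i ∈ univ.filter (fun i : Fin N => (i : ℕ) < k), ε i • v i‖) ∧
      (∀ R : ℝ, R < Real.sqrt ((d : ℝ) + 1) →
        ∃ (N : ℕ) (v : Fin N → EuclideanSpace ℝ (Fin d)), (∀ i, ‖v i‖ ≤ 1) ∧
        ∀ ε : Fin N → ℝ, (∀ i, ε i = 1 ∨ ε i = -1) → ∃ k : ℕ, k ≤ N ∧
          R < ‖∑ i ∈ univ.filter (fun i : Fin N => (i : ℕ) < k), ε i • v i‖)) ∧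
    (∀ (N : ℕ) (v : Fin N → EuclideanSpace ℝ (Fin 2)), (∀ i, ‖v i‖ ≤ 1) →
      ∃ ε : Fin N → ℝ, (∀ i, ε i = 1 ∨ ε i = -1) ∧ ∀ k : ℕ, k ≤ N →
        ‖∑ i ∈ univ.filter (fun i : Fin N => (i : ℕ) < k), ε i • v i‖ ≤ Real.sqrt 3) ∧
    (∀ (d N : ℕ) (v : Fin N → EuclideanSpace ℝ (Fin d)), (∀ i, ‖v i‖ ≤ 1) →
      ∀ c : ℕ → ℝ, (∀ k, 0 ≤ c k) →
      ∃ ε : Fin N → ℝ, (∀ i, ε i = 1 ∨ ε i = -1) ∧
        ∑ k ∈ range (N + 1),
            c k * ‖∑ i ∈ univ.filter (fun i : Fin N => (i : ℕ) < k), ε i • v i‖ ^ 2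
          ≤ d * ∑ k ∈ range (N + 1), c k) ∧
    (∀ (d N : ℕ) (v : Fin N → EuclideanSpace ℝ (Fin d)), (∀ i, ‖v i‖ ≤ 1) →
      ∀ K : ℝ, 0 < K →
      ∃ ε : Fin N → ℝ, (∀ i, ε i = 1 ∨ ε i = -1) ∧
        (((range (N + 1)).filter (fun k =>
            K * d < ‖∑ i ∈ univ.filter (fun i : Fin N => (i : ℕ) < k), ε i • v i‖ ^ 2)).card : ℝ) * K
          ≤ N) ∧
    (∀ (d N : ℕ) (v : Fin N → EuclideanSpace ℝ (Fin d)), (∀ i, ‖v i‖ ≤ 1) → ∑ i, v i = 0 →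
      ∃ σ : Equiv.Perm (Fin N),
        ∑ k ∈ range (N + 1), ‖∑ i ∈ univ.filter (fun i : Fin N => (i : ℕ) < k), v (σ i)‖ ^ 2
          ≤ d * N) ∧
    (∀ d : ℕ, ∃ v : Fin d → EuclideanSpace ℝ (Fin d), (∀ i, ‖v i‖ ≤ 1) ∧
      ∀ ε : Fin d → ℝ, (∀ i, ε i = 1 ∨ ε i = -1) →
        ‖∑ i ∈ univ.filter (fun i : Fin d => (i : ℕ) < d), ε i • v i‖ ^ 2 = d) :=
  ⟨fun d hd => LowerBoundAllDims.result d hd, PlaneExactValue.result.1,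
    MeanSquare.result.2.1, MeanSquare.result.2.2.1, MeanSquare.result.2.2.2.1,
    MeanSquare.result.2.2.2.2⟩

end Vale.Agent.Results.P262.Combined
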