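import Vale.Agent.P262.Lower

namespace Vale.Agent.Results.P262.LowerBoundAllDims

open Vale.Agent.P262

/-- For all `N ≥ d ≥ 2` there are `N` vectors in the Euclidean unit ball of `ℝ^d` such that
every signing has a partial sum of norm at least `√(d + 1 - 2^{-(N-d)})`; hence for every
`R < √(d+1)` some finite sequence in the unit ball forces a partial sum of norm `> R`. -/
theorem result (d : ℕ) (hd : 2 ≤ d) :
    (∀ N : ℕ, d ≤ N → ∃ v : Fin N → EuclideanSpace ℝ (Fin d), (∀ i, ‖v i‖ ≤ 1) ∧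
      ∀ ε : Fin N → ℝ, (∀ i, ε i = 1 ∨ ε i = -1) → ∃ k : ℕ, k ≤ N ∧
        Real.sqrt ((d : ℝ) + 1 - (1 / 2) ^ (N - d)) ≤
          ‖∑ i ∈ Finset.univ.filter (fun i : Fin N => (i : ℕ) < k), ε i • v i‖) ∧
    (∀ R : ℝ, R < Real.sqrt ((d : ℝ) + 1) →
      ∃ (N : ℕ) (v : Fin N → EuclideanSpace ℝ (Fin d)), (∀ i, ‖v i‖ ≤ 1) ∧
      ∀ ε : Fin N → ℝ, (∀ i, ε i = 1 ∨ ε i = -1) → ∃ k : ℕ, k ≤ N ∧
        R < ‖∑ i ∈ Finset.univ.filter (fun i : Fin N => (i : ℕ) < k), ε i • v i‖) := by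
  obtain ⟨d', rfl⟩ : ∃ d', d = d' + 2 := ⟨d - 2, by omega⟩
  have first : ∀ N : ℕ, d' + 2 ≤ N → ∃ v : Fin N → EuclideanSpace ℝ (Fin (d' + 2)),
      (∀ i, ‖v i‖ ≤ 1) ∧
      ∀ ε : Fin N → ℝ, (∀ i, ε i = 1 ∨ ε i = -1) → ∃ k : ℕ, k ≤ N ∧
        Real.sqrt (((d' + 2 : ℕ) : ℝ) + 1 - (1 / 2) ^ (N - (d' + 2))) ≤
          ‖∑ i ∈ Finset.univ.filter (fun i : Fin N => (i : ℕ) < k), ε i • v i‖ := by
    intro N hN
    obtain ⟨n, rfl⟩ : ∃ n, N = n + 2 + d' := ⟨N - (d' + 2), by omega⟩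
    obtain ⟨v, hv, hF⟩ := forces_main d' (EuclideanSpace ℝ (Fin (d' + 2))) (by simp) n
    refine ⟨v, hv, fun ε hε => ?_⟩
    obtain ⟨k, hk, hk'⟩ := hF.exists_index ε hε
    refine ⟨k, hk, ?_⟩
    rw [zero_add] at hk'
    have e1 : n + 2 + d' - (d' + 2) = n := by omega
    rw [e1]
    apply Real.sqrt_le_iff.mpr
    refine ⟨norm_nonneg _, ?_⟩
    push_cast
    linarith
  refine ⟨first, fun R hR => ?_⟩
  -- choose n with (1/2)^n small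
  set D : ℝ := ((d' + 2 : ℕ) : ℝ) + 1 with hD
  have hDpos : 0 < D := by positivity
  by_cases hR0 : R < 0
  · obtain ⟨v, hv, h⟩ := first (d' + 2) le_rfl
    refine ⟨d' + 2, v, hv, fun ε hε => ?_⟩
    obtain ⟨k, hk, -⟩ := h ε hε
    exact ⟨k, hk, lt_of_lt_of_le hR0 (norm_nonneg _)⟩
  · push Not at hR0
    have hR2 : R ^ 2 < D := by
      have := Real.lt_sqrt hR0 |>.mp hR
      exact this
    obtain ⟨n, hn⟩ := exists_pow_lt_of_lt_one (show (0 : ℝ) < D - R ^ 2 by linarith)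
      (show (1 / 2 : ℝ) < 1 by norm_num)
    obtain ⟨v, hv, h⟩ := first (d' + 2 + n) (by omega)
    refine ⟨d' + 2 + n, v, hv, fun ε hε => ?_⟩
    obtain ⟨k, hk, hk'⟩ := h ε hε
    refine ⟨k, hk, lt_of_lt_of_le ?_ hk'⟩
    have e1 : d' + 2 + n - (d' + 2) = n := by omega
    rw [e1]
    apply Real.lt_sqrt hR0 |>.mpr
    linarith

end Vale.Agent.Results.P262.LowerBoundAllDims
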